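import Vale.Agent.P286EQ.Fin

/-!
# Quantum geometric Langlands for elliptic curves, `SL_2` and `PGL_2`
-/

namespace Vale.Agent.Results.P286.AGenusOne

open Vale.Agent.P286.H96 Vale.Agent.P286EQ

/-- Quantum geometric Langlands in genus one at irrational level, for `SL_2` and `PGL_2 = SO_3`. -/
theorem result :
    (∀ a b : ℂ, 4 * a ^ 3 + 27 * b ^ 2 ≠ 0 → ∃ E : Ell, E.a = a ∧ E.b = b) ∧
    ∀ (E : Ell) (c : ℂ), (∀ q : ℚ, c ≠ (q : ℂ)) →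
      DGEq (DE 2 E SL2 c) (DE 3 E SO3 (-1 / c)) ∧ DGEq (DE 3 E SO3 c) (DE 2 E SL2 (-1 / c)) ∧
      IsNz (DE 2 E SL2 c) ∧ IsNz (DE 3 E SO3 c) := fin

end Vale.Agent.Results.P286.AGenusOne
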